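import Vale.Agent.P002.Bd3.B18
import Vale.Agent.P002.Bd3.B17
import Vale.Agent.P002.H326.N

/-!
# Potential density of integral points: curves, and central extensions of curve groups
-/

namespace Vale.Agent.Results.P002.CentralExtensions

open Matrix NumberField Vale.Agent.P002R.Orb Vale.Agent.P002.H326

/-- (1) Products of curves and orbifold curves `X_i` of genus `g i` with `n i` marked points
(punctures if `m i j = 0`, orbifold points of order `m i j` otherwise), all ranks `r`, all classes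
`C i j` (`j ∈ S i`) whose eigenvalues are algebraic units: some number field `L` makes the
`𝓞 L`-integral points of `Y`, and the representations into `SL_r(𝓞 L)`, Zariski dense; explicit `L`
for `N`-th roots of unity. (2) The same for every central extension of such a group by a finitely
generated abelian group in which the generators of different factors commute, with prescribed
classes at any set of the loops `c_{i,j}` and of the central generators `z_t`. -/
theorem result :
    (∀ (k : ℕ) (g n : Fin k → ℕ) (m : ∀ i, Fin (n i) → ℕ)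
      (r : ℕ) (S : ∀ i, Set (Fin (n i))) (C : ∀ i, Fin (n i) → SpecialLinearGroup (Fin r) ℂ),
      ((∀ i, ∀ j ∈ S i, ∀ z, IsEigenvalue (C i j) z → IsIntegral ℤ z ∧ IsIntegral ℤ z⁻¹) →
        ∃ L : IntermediateField ℚ ℂ, FiniteDimensional ℚ L ∧
          IsDense (Rels g n m) L (Y m S C) ∧ IsDenseRep L (Y (g := g) m S C)) ∧
      ((∀ i, g i = 1 → n i = 0 ∨ ∃ j, m i j = 0 ∧ j ∉ S i) →
        ∀ N : ℕ, 0 < N → (∀ i j, m i j ≠ 0 → m i j ∣ N) →
        (∀ i, ∀ j ∈ S i, ∀ z, IsEigenvalue (C i j) z → z ^ N = 1) →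
        ∀ L : IntermediateField ℚ ℂ, FiniteDimensional ℚ L →
          (∀ z : ℂ, z ^ (2 * N * (r * r).factorial) = 1 → z ∈ L) → Infinite (𝓞 L)ˣ →
          IsDenseRep L (Y (g := g) m S C))) ∧
    ∀ (k s : ℕ) (g n : Fin k → ℕ) (m : ∀ i, Fin (n i) → ℕ) (b : Fin k → Fin s → ℤ)
      (β : ∀ i, Fin (n i) → Fin s → ℤ) (Q : Set (Fin s → ℤ))
      (r : ℕ) (S : ∀ i, Set (Fin (n i))) (C : ∀ i, Fin (n i) → SpecialLinearGroup (Fin r) ℂ)
      (S' : Set (Fin s)) (D : Fin s → SpecialLinearGroup (Fin r) ℂ),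
      (∀ i, ∀ j ∈ S i, ∀ z, IsEigenvalue (C i j) z → IsIntegral ℤ z ∧ IsIntegral ℤ z⁻¹) →
      (∀ t ∈ S', ∀ z, IsEigenvalue (D t) z → IsIntegral ℤ z ∧ IsIntegral ℤ z⁻¹) →
        ∃ L : IntermediateField ℚ ℂ, FiniteDimensional ℚ L ∧
          IsDense (RelsC g n m b β Q) L (YC m b β Q S C S' D) ∧
            IsDenseRep L (YC (g := g) m b β Q S C S' D) := by
  refine ⟨fun k g n m r S C => Vale.Agent.P002B.main5 Vale.Agent.P002L.g01Irr
    Vale.Agent.P002B.g0All k g n m r S C, fun k s g n m b β Q r S C S' D hC hD => ?_⟩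
  obtain ⟨L, hL, h⟩ := central_density (g := g) (m := m) (b := b) (β := β) (Q := Q) (S := S)
    (C := C) (S' := S') (D := D) Vale.Agent.P002L.g01Irr Vale.Agent.P002B.g0All hC hD
  exact ⟨L, hL, h.isDense, h⟩

end Vale.Agent.Results.P002.CentralExtensions
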