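import Vale.Agent.P002.Bd3.B18
import Vale.Agent.P002.Bd3.B17
import Vale.Agent.P002.H326.N
import Vale.Agent.P002.H326J.J10

/-!
# Potential density of integral points: curves, central extensions of curve groups, and the locus
of virtually solvable monodromy for arbitrary fundamental groups
-/

namespace Vale.Agent.Results.P002.VirtuallySolvable

open Matrix NumberField Vale.Agent.P002R.Orb Vale.Agent.P002.H326 Vale.Agent.P002.H326J

/-- (1) For every finitely generated group (generators `ι`, any set `R` of relations), all `r`, all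
elements `w j` and all quasi-unipotent classes `C j` (or none): for some number field `L` the
`𝓞 L`-integral points, and the representations into `SL_r(𝓞 L)`, are Zariski dense in the locus
`YV` of those points of `Y = YW` whose monodromy group is virtually solvable; this is all of `Y` if
the group is virtually solvable. (2) Products of curves and orbifold curves `X_i` of genus `g i`
with `n i` marked points (punctures if `m i j = 0`, orbifold points of order `m i j` otherwise), all
ranks `r`, all classes `C i j` (`j ∈ S i`) whose eigenvalues are algebraic units: the same for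
`Y`; explicit `L` for `N`-th roots of unity. (3) The same for every central extension of such a
group by a finitely generated abelian group in which the generators of different factors commute,
with prescribed classes at any set of the loops `c_{i,j}` and of the central generators `z_t`. -/
theorem result :
    (∀ (ι : Type) [Finite ι] (R : Set (FreeGroup ι)) (r s : ℕ) (w : Fin s → FreeGroup ι)
      (C : Fin s → SpecialLinearGroup (Fin r) ℂ),
      (∀ j z, IsEigenvalue (C j) z → ∃ n : ℕ, 0 < n ∧ z ^ n = 1) →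
        ∃ L : IntermediateField ℚ ℂ, FiniteDimensional ℚ L ∧
          IsDense R L (YV R w C) ∧ IsDenseRep L (YV R w C) ∧
            ((∃ H : Subgroup (PresentedGroup R), Group.IsSolvable H ∧ H.FiniteIndex) →
              YV R w C = YW R w C)) ∧
    (∀ (k : ℕ) (g n : Fin k → ℕ) (m : ∀ i, Fin (n i) → ℕ)
      (r : ℕ) (S : ∀ i, Set (Fin (n i))) (C : ∀ i, Fin (n i) → SpecialLinearGroup (Fin r) ℂ),
      ((∀ i, ∀ j ∈ S i, ∀ z, IsEigenvalue (C i j) z → IsIntegral ℤ z ∧ IsIntegral ℤ z⁻¹) →
        ∃ L : IntermediateField ℚ ℂ, FiniteDimensional ℚ L ∧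
          IsDense (Rels g n m) L (Y m S C) ∧ IsDenseRep L (Y (g := g) m S C)) ∧
      ((∀ i, g i = 1 → n i = 0 ∨ ∃ j, m i j = 0 ∧ j ∉ S i) →
        ∀ N : ℕ, 0 < N → (∀ i j, m i j ≠ 0 → m i j ∣ N) →
        (∀ i, ∀ j ∈ S i, ∀ z, IsEigenvalue (C i j) z → z ^ N = 1) →
        ∀ L : IntermediateField ℚ ℂ, FiniteDimensional ℚ L →
          (∀ z : ℂ, z ^ (2 * N * (r * r).factorial) = 1 → z ∈ L) → Infinite (𝓞 L)ˣ →
          IsDenseRep L (Y (g := g) m S C))) ∧
    ∀ (k s : ℕ) (g n : Fin k → ℕ) (m : ∀ i, Fin (n i) → ℕ) (b : Fin k → Fin s → ℤ)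
      (β : ∀ i, Fin (n i) → Fin s → ℤ) (Q : Set (Fin s → ℤ))
      (r : ℕ) (S : ∀ i, Set (Fin (n i))) (C : ∀ i, Fin (n i) → SpecialLinearGroup (Fin r) ℂ)
      (S' : Set (Fin s)) (D : Fin s → SpecialLinearGroup (Fin r) ℂ),
      (∀ i, ∀ j ∈ S i, ∀ z, IsEigenvalue (C i j) z → IsIntegral ℤ z ∧ IsIntegral ℤ z⁻¹) →
      (∀ t ∈ S', ∀ z, IsEigenvalue (D t) z → IsIntegral ℤ z ∧ IsIntegral ℤ z⁻¹) →
        ∃ L : IntermediateField ℚ ℂ, FiniteDimensional ℚ L ∧
          IsDense (RelsC g n m b β Q) L (YC m b β Q S C S' D) ∧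
            IsDenseRep L (YC (g := g) m b β Q S C S' D) := by
  refine ⟨fun ι _ R r s w C hC => ?_,
    fun k g n m r S C => Vale.Agent.P002B.main5 Vale.Agent.P002L.g01Irr
      Vale.Agent.P002B.g0All k g n m r S C, fun k s g n m b β Q r S C S' D hC hD => ?_⟩
  · obtain ⟨L, hL, h⟩ := vs_dense R w C hC
    exact ⟨L, hL, h.isDense, h, yv_eq R w C⟩
  · obtain ⟨L, hL, h⟩ := central_density (g := g) (m := m) (b := b) (β := β) (Q := Q) (S := S)
      (C := C) (S' := S') (D := D) Vale.Agent.P002L.g01Irr Vale.Agent.P002B.g0All hC hD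
    exact ⟨L, hL, h.isDense, h⟩

end Vale.Agent.Results.P002.VirtuallySolvable
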